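/-
P163 (two-dimensional spin models): the model on a finite graph, and quantitative absence of
anisotropy in a weak field.
-/
import Vale.Agent.P163.Decay.Sphere

open MeasureTheory Filter Topology
open scoped InnerProductSpace

noncomputable section

namespace Vale.Agent.P163.Free

open Decay

variable {n : ℕ} {V E : Type*} [Fintype V] [Fintype E] (u v : E → V)

/-- The interaction of a configuration on a finite graph. -/
def ham (σ : V → Sn n) : ℝ := ∑ b, ⟪(σ (u b) : EuclideanSpace ℝ (Fin n)), σ (v b)⟫_ℝ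

/-- The planar part of a spin. -/
def pl (i j : Fin n) (a : Sn n) : ℝ := co a i ^ 2 + co a j ^ 2

/-- The weight with a field in a plane. -/
def wt (β : ℝ) (i j : Fin n) (W : V → ℝ) (σ : V → Sn n) : ℝ :=
  Real.exp (β * ham u v σ + ∑ x, W x * pl i j (σ x))

/-- The partition function. -/
def pf (β : ℝ) (i j : Fin n) (W : V → ℝ) : ℝ := ∫ σ, wt u v β i j W σ ∂cm V n

@[fun_prop]
lemma continuous_pl (i j : Fin n) : Continuous (pl i j : Sn n → ℝ) :=
  ((continuous_co i).pow 2).add ((continuous_co j).pow 2)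

@[fun_prop]
lemma continuous_ham : Continuous (ham u v : (V → Sn n) → ℝ) := by
  unfold ham; fun_prop

@[fun_prop]
lemma continuous_wt (β : ℝ) (i j : Fin n) (W : V → ℝ) : Continuous (wt u v β i j W) := by
  unfold wt; fun_prop

lemma wt_pos (β : ℝ) (i j : Fin n) (W : V → ℝ) (σ : V → Sn n) : 0 < wt u v β i j W σ :=
  Real.exp_pos _

lemma pf_pos (hn : 0 < n) (β : ℝ) (i j : Fin n) (W : V → ℝ) : 0 < pf u v β i j W :=
  integral_pos_cm hn (continuous_wt u v β i j W) (wt_pos u v β i j W)

lemma abs_planar_le {i j : Fin n} (hij : i ≠ j) (a b : Sn n) :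
    |co a i * co b i + co a j * co b j| ≤ 1 := by
  have h1 := co_sq_add_le a hij
  have h2 := co_sq_add_le b hij
  rw [abs_le]
  constructor <;> nlinarith [sq_nonneg (co a i - co b i), sq_nonneg (co a j - co b j),
    sq_nonneg (co a i + co b i), sq_nonneg (co a j + co b j)]

lemma pl_mem {i j : Fin n} (hij : i ≠ j) (a : Sn n) : 0 ≤ pl i j a ∧ pl i j a ≤ 1 :=
  ⟨by unfold pl; positivity, co_sq_add_le a hij⟩

lemma act_rot_zero {i j : Fin n} (hij : i ≠ j) (a : Sn n) : act (rot hij 0) a = a := by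
  refine Subtype.ext (PiLp.ext fun k => ?_)
  show co (act (rot hij 0) a) k = co a k
  rw [co_rot, Real.cos_zero, Real.sin_zero]
  split_ifs with h1 h2
  · subst h1; ring
  · subst h2; ring
  · rfl

/-- Rotations cost little, so a plane field changes the second moments little. -/
lemma aniso {β : ℝ} (hβ : 0 ≤ β) {i j k : Fin n} (hij : i ≠ j) (hik : i ≠ k) {W : V → ℝ}
    (hW : ∀ x, 0 ≤ W x) {φ : V → ℝ} {o : V} (ho : φ o = Real.pi / 4) {C : ℝ}
    (hC : β * (∑ b, (φ (u b) - φ (v b)) ^ 2) / 2
      + ∑ x, (if φ x = 0 then 0 else W x) ≤ C) {t : ℝ} (ht : 0 < t) :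
    |∫ σ, (co (σ o) k ^ 2 - co (σ o) i ^ 2) * wt u v β i j W σ ∂cm (V) n|
      ≤ (C / t + 2 * t) * pf u v β i j W := by
  classical
  set μ := cm (V) n
  set Rp : (V → Sn n) → V → Sn n := fun σ x => act (rot hik (φ x)) (σ x) with hRp
  set Rm : (V → Sn n) → V → Sn n := fun σ x => act (rot hik (-φ x)) (σ x) with hRm
  set E : (V → Sn n) → ℝ := fun σ => β * ham u v σ + ∑ x, W x * pl i j (σ x) with hE
  have hwE : ∀ σ, wt u v β i j W σ = Real.exp (E σ) := fun σ => rfl
  have hcRp : Continuous Rp := continuous_pi fun x => (continuous_act _).comp (continuous_apply x)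
  have hcRm : Continuous Rm := continuous_pi fun x => (continuous_act _).comp (continuous_apply x)
  have hcE : Continuous E := by simp only [hE]; fun_prop
  have hmp : ∀ σ, Rm (Rp σ) = σ := fun σ => funext fun x => act_rot_neg hik _ _
  have hpm : ∀ σ, Rp (Rm σ) = σ := fun σ => funext fun x => by
    simpa using act_rot_neg hik (-φ x) (σ x)
  -- energy comparison
  have havg : ∀ σ, 2 * E σ - 2 * C ≤ E (Rp σ) + E (Rm σ) := by
    intro σ
    have hb : ∀ x y : V, 2 * ⟪(σ x : EuclideanSpace ℝ (Fin n)), σ y⟫_ℝ - (φ x - φ y) ^ 2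
        ≤ ⟪(Rp σ x : EuclideanSpace ℝ (Fin n)), Rp σ y⟫_ℝ
          + ⟪(Rm σ x : EuclideanSpace ℝ (Fin n)), Rm σ y⟫_ℝ := by
      intro x y
      simp only [hRp, hRm, inner_act_rot]
      rw [show -φ x - -φ y = -(φ x - φ y) by ring, Real.cos_neg, Real.sin_neg]
      have h1 := Real.one_sub_sq_div_two_le_cos (x := φ x - φ y)
      have h2 := Real.cos_le_one (φ x - φ y)
      have h3 := abs_le.1 (abs_planar_le hik (σ x) (σ y))
      nlinarith
    have hs : ∀ x, 2 * (W x * pl i j (σ x)) - 2 * (if φ x = 0 then 0 else W x)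
        ≤ W x * pl i j (Rp σ x) + W x * pl i j (Rm σ x) := by
      intro x
      by_cases h0 : φ x = 0
      · simp only [hRp, hRm, h0, neg_zero, act_rot_zero, if_true]
        linarith
      · rw [if_neg h0]
        have h1 := pl_mem hij (Rp σ x)
        have h2 := pl_mem hij (Rm σ x)
        have h3 := pl_mem hij (σ x)
        nlinarith [hW x]
    have hbs : 2 * ham u v σ - ∑ b, (φ (u b) - φ (v b)) ^ 2
        ≤ ham u v (Rp σ) + ham u v (Rm σ) := by
      simp only [ham]
      rw [Finset.mul_sum, ← Finset.sum_sub_distrib, ← Finset.sum_add_distrib]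
      exact Finset.sum_le_sum fun b _ => hb (u b) (v b)
    have hss := Finset.sum_le_sum (s := Finset.univ) fun x _ => hs x
    rw [Finset.sum_sub_distrib, Finset.sum_add_distrib, ← Finset.mul_sum, ← Finset.mul_sum] at hss
    simp only [hE]
    nlinarith [mul_le_mul_of_nonneg_left hbs hβ]
  set p : (V → Sn n) → ℝ := fun σ => Real.exp (E (Rp σ) / 2) with hp
  set q : (V → Sn n) → ℝ := fun σ => Real.exp (E (Rm σ) / 2) with hq
  have hpp : ∀ σ, p σ * p σ = wt u v β i j W (Rp σ) := fun σ => by
    rw [hwE, hp, ← Real.exp_add, add_halves]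
  have hqq : ∀ σ, q σ * q σ = wt u v β i j W (Rm σ) := fun σ => by
    rw [hwE, hq, ← Real.exp_add, add_halves]
  have hpq : ∀ σ, Real.exp (-C) * wt u v β i j W σ ≤ p σ * q σ := fun σ => by
    rw [hwE, hp, hq, ← Real.exp_add, ← Real.exp_add]
    exact Real.exp_le_exp.2 (by linarith [havg σ])
  set f : (V → Sn n) → ℝ := fun σ => co (σ o) i * co (σ o) k with hf
  have hdiff : ∀ σ, f (Rp σ) - f (Rm σ) = co (σ o) i ^ 2 - co (σ o) k ^ 2 := by
    intro σ
    simp only [hf, hRp, hRm, co_rot, if_true, if_neg (Ne.symm hik), ho, Real.cos_neg, Real.sin_neg,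
      Real.cos_pi_div_four, Real.sin_pi_div_four]
    have := Real.sq_sqrt (show (0 : ℝ) ≤ 2 by norm_num)
    linear_combination ((co (σ o) i ^ 2 - co (σ o) k ^ 2) / 2) * this
  have hfb : ∀ σ, |f σ| ≤ 1 / 2 := fun σ => by
    have := co_sq_add_le (σ o) hik
    simp only [hf, abs_le]
    constructor <;> nlinarith [sq_nonneg (co (σ o) i + co (σ o) k),
      sq_nonneg (co (σ o) i - co (σ o) k)]
  have hZ : 0 ≤ pf u v β i j W := integral_nonneg fun σ => (wt_pos u v β i j W σ).le
  have hip : ∫ σ, wt u v β i j W (Rp σ) ∂μ = pf u v β i j W :=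
    integral_act (fun x => rot hik (φ x)) (continuous_wt u v β i j W)
  have hiq : ∫ σ, wt u v β i j W (Rm σ) ∂μ = pf u v β i j W :=
    integral_act (fun x => rot hik (-φ x)) (continuous_wt u v β i j W)
  have hrew : ∫ σ, (co (σ o) k ^ 2 - co (σ o) i ^ 2) * wt u v β i j W σ ∂μ
      = ∫ σ, f σ * (p σ * p σ - q σ * q σ) ∂μ := by
    have a1 : ∫ σ, f σ * wt u v β i j W (Rp σ) ∂μ = ∫ σ, f (Rm σ) * wt u v β i j W σ ∂μ := by
      rw [← integral_act (fun x => rot hik (φ x))
        (G := fun σ => f (Rm σ) * wt u v β i j W σ) (by simp only [hf]; fun_prop)]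
      exact integral_congr_ae (Eventually.of_forall fun σ => by
        show _ = f (Rm (Rp σ)) * _
        rw [hmp])
    have a2 : ∫ σ, f σ * wt u v β i j W (Rm σ) ∂μ = ∫ σ, f (Rp σ) * wt u v β i j W σ ∂μ := by
      rw [← integral_act (fun x => rot hik (-φ x))
        (G := fun σ => f (Rp σ) * wt u v β i j W σ) (by simp only [hf]; fun_prop)]
      exact integral_congr_ae (Eventually.of_forall fun σ => by
        show _ = f (Rp (Rm σ)) * _
        rw [hpm])
    simp only [hpp, hqq, mul_sub]
    rw [integral_sub (integrable_cm (by simp only [hf]; fun_prop))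
      (integrable_cm (by simp only [hf]; fun_prop)), a1, a2,
      ← integral_sub (integrable_cm (by simp only [hf]; fun_prop))
      (integrable_cm (by simp only [hf]; fun_prop))]
    refine integral_congr_ae (Eventually.of_forall fun σ => ?_)
    show _ = f (Rm σ) * _ - f (Rp σ) * _
    rw [← sub_mul, show f (Rm σ) - f (Rp σ) = co (σ o) k ^ 2 - co (σ o) i ^ 2 by
      linarith [hdiff σ]]
  rw [hrew]
  refine abs_integral_le_integral_abs.trans ?_
  set a := 1 / (4 * t) + t / 4 with ha
  set b := 1 / (2 * t) with hb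
  have hbound : ∀ σ, |f σ * (p σ * p σ - q σ * q σ)|
      ≤ (1 / (4 * t)) * (p σ * p σ + q σ * q σ - 2 * (Real.exp (-C) * wt u v β i j W σ))
        + t / 2 * (p σ * p σ + q σ * q σ) := by
    intro σ
    rw [show p σ * p σ - q σ * q σ = (p σ - q σ) * (p σ + q σ) by ring, abs_mul (f σ) _,
      abs_mul (p σ - q σ) (p σ + q σ)]
    refine (mul_le_mul_of_nonneg_right (hfb σ) (by positivity)).trans ?_
    have h2 := two_mul_le_add_sq (|p σ - q σ| / Real.sqrt t) (|p σ + q σ| * Real.sqrt t)
    rw [div_pow, mul_pow, Real.sq_sqrt ht.le, sq_abs, sq_abs] at h2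
    have h3 : |p σ - q σ| / Real.sqrt t * (|p σ + q σ| * Real.sqrt t)
        = |p σ - q σ| * |p σ + q σ| := by
      field_simp [(Real.sqrt_pos.2 ht).ne']
    have h4 : (p σ - q σ) ^ 2 / t
        ≤ (p σ * p σ + q σ * q σ - 2 * (Real.exp (-C) * wt u v β i j W σ)) / t :=
      div_le_div_of_nonneg_right (by nlinarith [hpq σ]) ht.le
    have h5 : (p σ + q σ) ^ 2 * t ≤ 2 * (p σ * p σ + q σ * q σ) * t :=
      mul_le_mul_of_nonneg_right (by nlinarith [sq_nonneg (p σ - q σ)]) ht.le
    rw [mul_assoc 2 (|p σ - q σ| / Real.sqrt t), h3] at h2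
    rw [show 1 / (4 * t) * (p σ * p σ + q σ * q σ - 2 * (Real.exp (-C) * wt u v β i j W σ))
      = 1 / 4 * ((p σ * p σ + q σ * q σ - 2 * (Real.exp (-C) * wt u v β i j W σ)) / t) by ring]
    linarith
  refine (integral_mono (integrable_cm (by simp only [hf, hp, hq]; fun_prop))
    (integrable_cm (by simp only [hp, hq]; fun_prop)) hbound).trans ?_
  simp only [hpp, hqq]
  have iP : Integrable (fun σ => wt u v β i j W (Rp σ)) μ := integrable_cm (by fun_prop)
  have iQ : Integrable (fun σ => wt u v β i j W (Rm σ)) μ := integrable_cm (by fun_prop)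
  have iW : Integrable (fun σ => 2 * (Real.exp (-C) * wt u v β i j W σ)) μ :=
    integrable_cm (by fun_prop)
  rw [integral_add, integral_const_mul, integral_const_mul, integral_sub, integral_add iP iQ,
    integral_const_mul, integral_const_mul, hip, hiq]
  · have hC1 : 1 - Real.exp (-C) ≤ C := by linarith [Real.add_one_le_exp (-C)]
    show 1 / (4 * t) * (pf u v β i j W + pf u v β i j W - 2 * (Real.exp (-C) * pf u v β i j W))
      + t / 2 * (pf u v β i j W + pf u v β i j W) ≤ _
    have h1 : (1 - Real.exp (-C)) * pf u v β i j W / (2 * t) ≤ C * pf u v β i j W / (2 * t) :=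
      div_le_div_of_nonneg_right (mul_le_mul_of_nonneg_right hC1 hZ) (by positivity)
    have hC0 : 0 ≤ C := le_trans (add_nonneg (by positivity)
      (Finset.sum_nonneg fun x _ => by split_ifs <;> [exact le_rfl; exact hW x])) hC
    have h2 : 0 ≤ C * pf u v β i j W / t := by positivity
    have h3 : 0 ≤ t * pf u v β i j W := by positivity
    calc _ = (1 - Real.exp (-C)) * pf u v β i j W / (2 * t) + t * pf u v β i j W := by ring
      _ ≤ C * pf u v β i j W / (2 * t) + t * pf u v β i j W := by linarith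
      _ = C * pf u v β i j W / t / 2 + t * pf u v β i j W := by ring
      _ ≤ C * pf u v β i j W / t + 2 * (t * pf u v β i j W) := by linarith
      _ = _ := by ring
  · exact iP.add iQ
  · exact iW
  · exact ((iP.add iQ).sub iW).const_mul _
  · exact (iP.add iQ).const_mul _

end Vale.Agent.P163.Free
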