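/-
P163 (two-dimensional spin models): complex rotations on a finite graph.
-/
import Vale.Agent.P163.Free.Aniso

open MeasureTheory Filter Topology
open scoped InnerProductSpace

noncomputable section

namespace Vale.Agent.P163.Free

open Decay

variable {n : ℕ} {V E : Type*} [Fintype V] [Fintype E] [DecidableEq V] (u v : E → V)

lemma differentiable_param {X : Type*} [TopologicalSpace X] [CompactSpace X] [MeasurableSpace X]
    [OpensMeasurableSpace X] [SecondCountableTopology X] (ν : Measure X) [IsFiniteMeasure ν]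
    {K K' : ℂ → X → ℂ} (hK : Continuous (Function.uncurry K))
    (hK' : Continuous (Function.uncurry K')) (hd : ∀ z x, HasDerivAt (fun w => K w x) (K' z x) z) :
    Differentiable ℂ fun z => ∫ x, K z x ∂ν := by
  intro z
  obtain ⟨B, hB⟩ := ((isCompact_closedBall z 1).prod (isCompact_univ (X := X))
    ).exists_bound_of_continuousOn hK'.continuousOn
  refine (hasDerivAt_integral_of_dominated_loc_of_deriv_le (F := K) (F' := K') (bound := fun _ => B)
    (s := Metric.closedBall z 1) (Metric.closedBall_mem_nhds z one_pos)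
    (Eventually.of_forall fun w => (hK.comp (continuous_const.prodMk continuous_id)
      ).aestronglyMeasurable) ?_ (hK'.comp (continuous_const.prodMk continuous_id)
      ).aestronglyMeasurable (Eventually.of_forall fun x w hw => hB (w, x) ⟨hw, trivial⟩)
    (integrable_const _) (Eventually.of_forall fun x w _ => hd w x)).2.differentiableAt
  exact (hK.comp (continuous_const.prodMk continuous_id)).integrable_of_hasCompactSupport
    (HasCompactSupport.of_compactSpace _)

lemma eq_zero_of_real {G : ℂ → ℂ} (hG : Differentiable ℂ G) (h : ∀ t : ℝ, G t = 0) (z : ℂ) :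
    G z = 0 := by
  have hf : ∃ᶠ w in 𝓝[≠] (0 : ℂ), G w = (fun _ => (0 : ℂ)) w := by
    have ht : Tendsto (fun k : ℕ => ((1 / ((k : ℝ) + 1) : ℝ) : ℂ)) atTop (𝓝[≠] 0) := by
      refine tendsto_nhdsWithin_iff.2 ⟨?_, Eventually.of_forall fun k => ?_⟩
      · exact ((Complex.continuous_ofReal.tendsto' 0 0 Complex.ofReal_zero).comp
          (tendsto_one_div_add_atTop_nhds_zero_nat (𝕜 := ℝ)))
      · simp only [Set.mem_compl_iff, Set.mem_singleton_iff, Complex.ofReal_eq_zero]
        positivity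
    exact ht.frequently (Frequently.of_forall fun k => h _)
  exact congrFun ((Complex.analyticOnNhd_univ_iff_differentiable.2 hG).eq_of_frequently_eq
    analyticOnNhd_const hf) z

/-- The site field produced by a complex rotation. -/
def fldA (β : ℝ) (a : V → ℝ) (x : V) : ℝ :=
  β / 2 * ∑ b, (Real.cosh (a (u b) - a (v b)) - 1)
    * ((if u b = x then 1 else 0) + if v b = x then 1 else 0)

lemma fldA_nonneg {β : ℝ} (hβ : 0 ≤ β) (a : V → ℝ) (x : V) : 0 ≤ fldA u v β a x := by
  refine mul_nonneg (by positivity) (Finset.sum_nonneg fun b _ => mul_nonneg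
    (sub_nonneg.2 (Real.one_le_cosh _)) ?_)
  split_ifs <;> norm_num

lemma sum_fldA_mul (β : ℝ) (a f : V → ℝ) :
    ∑ x, fldA u v β a x * f x
      = β * ∑ b, (Real.cosh (a (u b) - a (v b)) - 1) * ((f (u b) + f (v b)) / 2) := by
  simp only [fldA, mul_assoc, Finset.sum_mul, ← Finset.mul_sum]
  rw [Finset.sum_comm]
  simp only [← Finset.mul_sum, add_mul, Finset.sum_add_distrib, ite_mul, one_mul, zero_mul,
    Finset.sum_ite_eq, Finset.mem_univ, if_true]
  rw [Finset.mul_sum, Finset.mul_sum]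
  exact Finset.sum_congr rfl fun b _ => by ring

/-- The planar scalar product. -/
def pp (i j : Fin n) (s t : Sn n) : ℝ := co s i * co t i + co s j * co t j

/-- The planar cross product. -/
def qq (i j : Fin n) (s t : Sn n) : ℝ := co s i * co t j - co s j * co t i

@[fun_prop]
lemma continuous_pp (i j : Fin n) : Continuous fun p : Sn n × Sn n => pp i j p.1 p.2 := by
  unfold pp; fun_prop

@[fun_prop]
lemma continuous_qq (i j : Fin n) : Continuous fun p : Sn n × Sn n => qq i j p.1 p.2 := by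
  unfold qq; fun_prop

/-- The bond term under a complex rotation. -/
def cb (i j : Fin n) (z : ℂ) (d : ℝ) (s t : Sn n) : ℂ :=
  (⟪(s : EuclideanSpace ℝ (Fin n)), t⟫_ℝ : ℂ) + (Complex.cos (z * d) - 1) * (pp i j s t : ℂ)
    + Complex.sin (z * d) * (qq i j s t : ℂ)

/-- Its derivative. -/
def cb' (i j : Fin n) (z : ℂ) (d : ℝ) (s t : Sn n) : ℂ :=
  (-Complex.sin (z * d) * d) * (pp i j s t : ℂ) + (Complex.cos (z * d) * d) * (qq i j s t : ℂ)

/-- The interaction under a complex rotation. -/
def chm (i j : Fin n) (a : V → ℝ) (z : ℂ) (σ : V → Sn n) : ℂ :=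
  ∑ b, cb i j z (a (u b) - a (v b)) (σ (u b)) (σ (v b))

/-- Its derivative. -/
def chm' (i j : Fin n) (a : V → ℝ) (z : ℂ) (σ : V → Sn n) : ℂ :=
  ∑ b, cb' i j z (a (u b) - a (v b)) (σ (u b)) (σ (v b))

/-- The rotated observable. -/
def cobs (i j : Fin n) (a : V → ℝ) (o x : V) (z : ℂ) (σ : V → Sn n) : ℂ :=
  Complex.exp (Complex.I * z * ((a o - a x : ℝ) : ℂ))
    * ((pp i j (σ o) (σ x) : ℂ) - Complex.I * (qq i j (σ o) (σ x) : ℂ))

@[fun_prop]
lemma continuous_chm (i j : Fin n) (a : V → ℝ) :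
    Continuous fun p : ℂ × (V → Sn n) => chm u v i j a p.1 p.2 := by
  unfold chm cb; fun_prop

@[fun_prop]
lemma continuous_chm' (i j : Fin n) (a : V → ℝ) :
    Continuous fun p : ℂ × (V → Sn n) => chm' u v i j a p.1 p.2 := by
  unfold chm' cb'; fun_prop

@[fun_prop]
lemma continuous_cobs (i j : Fin n) (a : V → ℝ) (o x : V) :
    Continuous fun p : ℂ × (V → Sn n) => cobs i j a o x p.1 p.2 := by
  unfold cobs; fun_prop

lemma hasDerivAt_cb (i j : Fin n) (z : ℂ) (d : ℝ) (s t : Sn n) :
    HasDerivAt (fun w => cb i j w d s t) (cb' i j z d s t) z := by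
  have hl : HasDerivAt (fun w : ℂ => w * (d : ℂ)) (d : ℂ) z := by
    simpa using (hasDerivAt_id z).mul_const (d : ℂ)
  exact (((hl.ccos.sub_const 1).mul_const _).const_add _).add (hl.csin.mul_const _)

lemma hasDerivAt_chm (i j : Fin n) (a : V → ℝ) (z : ℂ) (σ : V → Sn n) :
    HasDerivAt (fun w => chm u v i j a w σ) (chm' u v i j a z σ) z :=
  HasDerivAt.fun_sum fun _ _ => hasDerivAt_cb i j z _ _ _

lemma hasDerivAt_cobs (i j : Fin n) (a : V → ℝ) (o x : V) (z : ℂ) (σ : V → Sn n) :
    HasDerivAt (fun w => cobs i j a o x w σ)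
      (Complex.I * ((a o - a x : ℝ) : ℂ) * cobs i j a o x z σ) z := by
  have h := ((((hasDerivAt_id z).const_mul Complex.I).mul_const
    ((a o - a x : ℝ) : ℂ)).cexp).mul_const
      ((pp i j (σ o) (σ x) : ℂ) - Complex.I * (qq i j (σ o) (σ x) : ℂ))
  simp only [id, mul_one] at h
  refine h.congr_deriv ?_
  simp only [cobs]
  ring

lemma cb_rot {i j : Fin n} (hij : i ≠ j) (a : V → ℝ) (t : ℝ) (σ : V → Sn n) (y w : V) :
    cb i j 0 (a y - a w) (act (rot hij (t * a y)) (σ y)) (act (rot hij (t * a w)) (σ w))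
      = cb i j t (a y - a w) (σ y) (σ w) := by
  simp only [cb, zero_mul, Complex.cos_zero, Complex.sin_zero, sub_self, add_zero,
    inner_act_rot, ← Complex.ofReal_mul, ← Complex.ofReal_cos, ← Complex.ofReal_sin, pp, qq,
    mul_sub]
  push_cast
  ring

lemma cobs_rot {i j : Fin n} (hij : i ≠ j) (a : V → ℝ) (t : ℝ) (o x : V)
    (σ : V → Sn n) :
    cobs i j a o x 0 (fun y => act (rot hij (t * a y)) (σ y)) = cobs i j a o x t σ := by
  rw [cobs, cobs, show Complex.I * (t : ℂ) * ((a o - a x : ℝ) : ℂ)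
    = ((t * a o - t * a x : ℝ) : ℂ) * Complex.I by push_cast; ring, Complex.exp_mul_I]
  simp only [mul_zero, zero_mul, Complex.exp_zero, one_mul, pp, qq, co_rot, if_true,
    if_neg (Ne.symm hij), ← Complex.ofReal_cos, ← Complex.ofReal_sin, Real.cos_sub, Real.sin_sub]
  push_cast
  linear_combination ((Complex.sin (t * a o) * Complex.cos (t * a x)
    - Complex.cos (t * a o) * Complex.sin (t * a x))
    * ((co (σ o) i : ℂ) * co (σ x) j - co (σ o) j * co (σ x) i)) * Complex.I_sq

lemma re_chm_I_le {i j : Fin n} (a : V → ℝ) {β : ℝ} (hβ : 0 ≤ β) (σ : V → Sn n) :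
    β * (chm u v i j a Complex.I σ).re
      ≤ β * ham u v σ + ∑ x, fldA u v β a x * pl i j (σ x) := by
  have hI : ∀ d s t, (cb i j Complex.I d s t).re
      = ⟪(s : EuclideanSpace ℝ (Fin n)), t⟫_ℝ + (Real.cosh d - 1) * pp i j s t := by
    intro d s t
    simp only [cb]
    rw [mul_comm Complex.I (d : ℂ), Complex.cos_mul_I, Complex.sin_mul_I,
      ← Complex.ofReal_cosh, ← Complex.ofReal_sinh]
    simp
  rw [sum_fldA_mul u v β a (fun x => pl i j (σ x)), ← mul_add]
  refine mul_le_mul_of_nonneg_left ?_ hβ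
  simp only [ham, chm, Complex.re_sum, hI]
  rw [← Finset.sum_add_distrib]
  refine Finset.sum_le_sum fun b _ => add_le_add le_rfl (mul_le_mul_of_nonneg_left ?_
    (sub_nonneg.2 (Real.one_le_cosh _)))
  simp only [pp, pl]
  nlinarith [sq_nonneg (co (σ (u b)) i - co (σ (v b)) i),
    sq_nonneg (co (σ (u b)) j - co (σ (v b)) j)]

/-- The rotated integrand. -/
def cint (β : ℝ) (i j : Fin n) (a : V → ℝ) (o x : V) (z : ℂ) (σ : V → Sn n) : ℂ :=
  cobs i j a o x z σ * Complex.exp (β * chm u v i j a z σ)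

/-- Its derivative. -/
def cint' (β : ℝ) (i j : Fin n) (a : V → ℝ) (o x : V) (z : ℂ) (σ : V → Sn n) : ℂ :=
  Complex.I * ((a o - a x : ℝ) : ℂ) * cobs i j a o x z σ * Complex.exp (β * chm u v i j a z σ)
    + cobs i j a o x z σ * (Complex.exp (β * chm u v i j a z σ) * (β * chm' u v i j a z σ))

lemma hasDerivAt_cint (β : ℝ) (i j : Fin n) (a : V → ℝ) (o x : V) (z : ℂ)
    (σ : V → Sn n) :
    HasDerivAt (fun w => cint u v β i j a o x w σ) (cint' u v β i j a o x z σ) z :=
  (hasDerivAt_cobs i j a o x z σ).mul (((hasDerivAt_chm u v i j a z σ).const_mul (β : ℂ)).cexp)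

lemma continuous_cint (β : ℝ) (i j : Fin n) (a : V → ℝ) (o x : V) :
    Continuous (Function.uncurry (cint u v β i j a o x)) := by
  unfold cint; simp only [Function.uncurry_def]; fun_prop

lemma continuous_cint' (β : ℝ) (i j : Fin n) (a : V → ℝ) (o x : V) :
    Continuous (Function.uncurry (cint' u v β i j a o x)) := by
  unfold cint'; simp only [Function.uncurry_def]; fun_prop

lemma norm_cint_I_le {β : ℝ} (hβ : 0 ≤ β) {i j : Fin n} (hij : i ≠ j) (a : V → ℝ) (o x : V)
    (σ : V → Sn n) :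
    ‖cint u v β i j a o x Complex.I σ‖ ≤ Real.exp (-(a o - a x)) * wt u v β i j (fldA u v β a) σ := by
  have hnp : ‖(pp i j (σ o) (σ x) : ℂ) - Complex.I * (qq i j (σ o) (σ x) : ℂ)‖ ≤ 1 := by
    rw [show (pp i j (σ o) (σ x) : ℂ) - Complex.I * (qq i j (σ o) (σ x) : ℂ)
      = ⟨pp i j (σ o) (σ x), -qq i j (σ o) (σ x)⟩ from Complex.ext (by simp) (by simp),
      Complex.norm_def, Real.sqrt_le_one, Complex.normSq_mk]
    have h1 := co_sq_add_le (σ o) hij
    have h2 := co_sq_add_le (σ x) hij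
    simp only [pp, qq]
    nlinarith [mul_le_mul h1 h2 (by positivity) zero_le_one]
  rw [cint, cobs, Complex.I_mul_I, norm_mul, norm_mul, Complex.norm_exp, Complex.norm_exp,
    show ((-1 : ℂ) * ((a o - a x : ℝ) : ℂ)).re = -(a o - a x) by simp]
  refine mul_le_mul (mul_le_of_le_one_right (Real.exp_pos _).le hnp) ?_ (Real.exp_pos _).le
    (Real.exp_pos _).le
  rw [wt, Real.exp_le_exp, Complex.re_ofReal_mul]
  exact re_chm_I_le u v a hβ σ

lemma re_cint_zero (β : ℝ) (i j : Fin n) (a : V → ℝ) (o x : V) (σ : V → Sn n) :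
    (co (σ o) i * co (σ x) i + co (σ o) j * co (σ x) j) * wt u v β i j 0 σ
      = (cint u v β i j a o x 0 σ).re := by
  have hch : chm u v i j a 0 σ = ((ham u v σ : ℝ) : ℂ) := by
    simp [chm, cb, ham, Complex.ofReal_sum]
  rw [cint, hch]
  simp [cobs, wt, pp, Complex.mul_re, Complex.exp_re, Complex.exp_im]

lemma cint_rot {β : ℝ} {i j : Fin n} (hij : i ≠ j) (a : V → ℝ) (t : ℝ) (o x : V)
    (σ : V → Sn n) :
    cint u v β i j a o x 0 (fun y => act (rot hij (t * a y)) (σ y)) = cint u v β i j a o x t σ := by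
  simp only [cint, cobs_rot, chm, cb_rot]

/-- The planar correlation is bounded by a partition function in a field. -/
lemma rotate_bound {β : ℝ} (hβ : 0 ≤ β) {i j : Fin n} (hij : i ≠ j) (a : V → ℝ) (o x : V) :
    |∫ σ, (co (σ o) i * co (σ x) i + co (σ o) j * co (σ x) j) * wt u v β i j 0 σ ∂cm (V) n|
      ≤ Real.exp (-(a o - a x)) * pf u v β i j (fldA u v β a) := by
  have hc := continuous_cint u v β i j a o x
  have hcz : ∀ z, Continuous (cint u v β i j a o x z) := fun z => Continuous.uncurry_left z hc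
  have hreal : ∀ t : ℝ, ∫ σ, cint u v β i j a o x t σ ∂cm (V) n
      = ∫ σ, cint u v β i j a o x 0 σ ∂cm (V) n := fun t => by
    rw [← integral_act (fun y => rot hij (t * a y)) (hcz 0)]
    simp only [cint_rot]
  have hd := (differentiable_param (cm (V) n) hc (continuous_cint' u v β i j a o x)
    (hasDerivAt_cint u v β i j a o x)).sub_const (∫ σ, cint u v β i j a o x 0 σ ∂cm (V) n)
  have hconst : ∫ σ, cint u v β i j a o x Complex.I σ ∂cm (V) n
      = ∫ σ, cint u v β i j a o x 0 σ ∂cm (V) n :=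
    sub_eq_zero.1 (eq_zero_of_real hd (fun t => sub_eq_zero.2 (hreal t)) Complex.I)
  have h := integral_re (𝕜 := ℂ) (integrable_cm (hcz 0))
  simp only [RCLike.re_to_complex] at h
  simp only [re_cint_zero u v β i j a o x]
  rw [h, ← hconst]
  refine le_trans (Complex.abs_re_le_norm _) (le_trans (norm_integral_le_integral_norm _) ?_)
  rw [pf, ← integral_const_mul]
  exact integral_mono (integrable_cm (hcz Complex.I).norm)
    (integrable_cm ((continuous_wt u v β i j (fldA u v β a)).const_mul _))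
    fun σ => norm_cint_I_le u v hβ hij a o x σ

end Vale.Agent.P163.Free
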