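/-
P163 (two-dimensional spin models): the objects used in the hand-in statement.
-/
import Mathlib

open MeasureTheory
open scoped InnerProductSpace

noncomputable section

namespace Vale.Agent.P163.Free

/-- An assignment of a unit vector of `ℝⁿ` to each site. -/
abbrev Spins (n : ℕ) (S : Type) := S → Metric.sphere (0 : EuclideanSpace ℝ (Fin n)) 1

/-- The product over the sites of the uniform (surface) measure on the unit sphere. -/
def spinMeasure (n : ℕ) (S : Type) [Fintype S] : Measure (Spins n S) :=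
  Measure.pi fun _ => (volume : Measure (EuclideanSpace ℝ (Fin n))).toSphere

/-- The two-point correlation for the weight `exp (β H)`. -/
def twoPoint (n : ℕ) {S : Type} [Fintype S] (β : ℝ) (H : Spins n S → ℝ) (x y : S) : ℝ :=
  (∫ σ, ⟪(σ x : EuclideanSpace ℝ (Fin n)), σ y⟫_ℝ * Real.exp (β * H σ) ∂spinMeasure n S)
    / ∫ σ, Real.exp (β * H σ) ∂spinMeasure n S

/-- Free boundary conditions: the sum over the nearest-neighbour bonds inside a finite set. -/
def boxBondSum (n : ℕ) (box : Finset (ℤ × ℤ)) (σ : Spins n box) : ℝ :=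
  ∑ z : box, ∑ w : box, if w.1 = z.1 + (1, 0) ∨ w.1 = z.1 + (0, 1)
    then ⟪(σ z : EuclideanSpace ℝ (Fin n)), σ w⟫_ℝ else 0

/-- Periodic boundary conditions: the sum over the bonds of a rectangular torus. -/
def torusBondSum (n a b : ℕ) [NeZero a] [NeZero b] (σ : Spins n (ZMod a × ZMod b)) : ℝ :=
  ∑ z : ZMod a × ZMod b,
    (⟪(σ z : EuclideanSpace ℝ (Fin n)), σ (z + (1, 0))⟫_ℝ
      + ⟪(σ z : EuclideanSpace ℝ (Fin n)), σ (z + (0, 1))⟫_ℝ)

/-- The sup distance in the square lattice. -/
def supDist (x y : ℤ × ℤ) : ℕ := max (x.1 - y.1).natAbs (x.2 - y.2).natAbs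

/-- The periodic sup distance, cut at half of the shorter side. -/
def torusDist (a b : ℕ) (x y : ZMod a × ZMod b) : ℕ :=
  min (max (x - y).1.valMinAbs.natAbs (x - y).2.valMinAbs.natAbs) (min (a / 2) (b / 2))

end Vale.Agent.P163.Free
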