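/-
P163 (two-dimensional spin models): graphs with square rings of planar size, logarithmic profiles.
-/
import Mathlib

open Finset

noncomputable section

namespace Vale.Agent.P163.Free

variable {V E : Type*}

/-- A finite graph with a radial coordinate whose rings have planar size up to radius `cap`. -/
structure Geo [Fintype V] [Fintype E] (u v : E → V) (ρ : V → V → ℕ) (cap : ℕ) : Prop where
  self : ∀ o, ρ o o = 0
  symm : ∀ x y, ρ x y = ρ y x
  tri : ∀ x y z, ρ x z ≤ ρ x y + ρ y z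
  step : ∀ b o, ρ (u b) o ≤ ρ (v b) o + 1 ∧ ρ (v b) o ≤ ρ (u b) o + 1
  degu : ∀ x, Nat.card {b // u b = x} ≤ 2
  degv : ∀ x, Nat.card {b // v b = x} ≤ 2
  ring : ∀ o k, k < cap → Nat.card {b // (ρ (u b) o = k ∧ ρ (v b) o = k + 1)
      ∨ (ρ (u b) o = k + 1 ∧ ρ (v b) o = k)} ≤ 4 * (2 * k + 1)
  ball : ∀ o R, Nat.card {x // ρ x o ≤ R} ≤ (2 * R + 1) ^ 2

/-- The logarithmic profile between two radii. -/
def prf (K M k : ℕ) : ℝ := Real.log M - Real.log (max K (min k M) : ℕ)

lemma prf_out {K M k : ℕ} (hKM : K ≤ M) (hk : M ≤ k) : prf K M k = 0 := by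
  simp [prf, min_eq_right hk, max_eq_right hKM]

lemma prf_in {K M : ℕ} : prf K M 0 = Real.log M - Real.log K := by simp [prf]

lemma prf_diff {K M : ℕ} (hK : 1 ≤ K) (k : ℕ) :
    (K ≤ k ∧ k < M ∧ |prf K M k - prf K M (k + 1)| ≤ 1 / (k : ℝ)) ∨
      prf K M k - prf K M (k + 1) = 0 := by
  by_cases h1 : K ≤ k ∧ k < M
  · left
    refine ⟨h1.1, h1.2, ?_⟩
    simp only [prf]
    rw [min_eq_left h1.2.le, max_eq_right h1.1, min_eq_left (show k + 1 ≤ M by omega),
      max_eq_right (show K ≤ k + 1 by omega)]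
    have hk : (0 : ℝ) < k := by exact_mod_cast (show 0 < k by omega)
    have hk1 : (0 : ℝ) < (k : ℝ) + 1 := by positivity
    push_cast
    rw [show Real.log M - Real.log k - (Real.log M - Real.log ((k : ℝ) + 1))
      = Real.log (((k : ℝ) + 1) / k) by rw [Real.log_div hk1.ne' hk.ne']; ring]
    rw [abs_of_nonneg (Real.log_nonneg (by rw [le_div_iff₀ hk]; linarith))]
    refine (Real.log_le_sub_one_of_pos (by positivity)).trans (le_of_eq ?_)
    field_simp
    ring
  · right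
    simp only [prf]
    rw [show max K (min (k + 1) M) = max K (min k M) by omega, sub_self]

lemma sum_inv_le {K M : ℕ} (hK : 1 ≤ K) (hKM : K ≤ M) :
    ∑ k ∈ Ico K M, 1 / (k : ℝ) ≤ 1 / (K : ℝ) + (Real.log M - Real.log K) := by
  refine (sum_le_sum_of_subset_of_nonneg (Ico_subset_Ico le_rfl M.le_succ)
    fun k _ _ => by positivity).trans ?_
  induction M, hKM using Nat.le_induction with
  | base => simp
  | succ M hKM ih =>
    rw [sum_Ico_succ_top (by omega : K ≤ M + 1)]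
    have hM : (0 : ℝ) < M := by exact_mod_cast (show 0 < M by omega)
    have h := Real.one_sub_inv_le_log_of_pos (x := ((M : ℝ) + 1) / M) (by positivity)
    rw [Real.log_div (by positivity) hM.ne', inv_div] at h
    have e : 1 - (M : ℝ) / ((M : ℝ) + 1) = 1 / ((M : ℝ) + 1) := by field_simp; ring
    rw [e] at h
    simp only [Nat.succ_eq_add_one] at ih ⊢
    push_cast
    linarith

lemma prf_step {K M : ℕ} (hK : 1 ≤ K) (a b : ℕ) (h1 : b ≤ a + 1) (h2 : a ≤ b + 1) :
    |prf K M a - prf K M b| ≤ 1 / (K : ℝ) := by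
  have key : ∀ k, |prf K M k - prf K M (k + 1)| ≤ 1 / (K : ℝ) := by
    intro k
    rcases prf_diff (M := M) hK k with ⟨h, -, h'⟩ | h
    · exact h'.trans (one_div_le_one_div_of_le (by exact_mod_cast hK) (by exact_mod_cast h))
    · rw [h, abs_zero]; positivity
  rcases (show b = a ∨ b = a + 1 ∨ a = b + 1 by omega) with h | h | h
  · rw [h, sub_self, abs_zero]; positivity
  · rw [h]; exact key a
  · rw [h, abs_sub_comm]; exact key b

variable [Fintype V] [Fintype E] {u v : E → V} {ρ : V → V → ℕ} {cap : ℕ}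

/-- The sum over bonds of a function of a radial profile. -/
lemma Geo.bond_sum (G : Geo u v ρ cap) {A : ℕ → ℝ} {M : ℕ} (hM : M ≤ cap)
    (hA : ∀ k, M ≤ k → A k = A M) {g : ℝ → ℝ}
    (hg : ∀ t, 0 ≤ g t) (hg0 : g 0 = 0) (hge : ∀ t, g (-t) = g t) (o : V) :
    ∑ b, g (A (ρ (u b) o) - A (ρ (v b) o))
      ≤ ∑ k ∈ range M, 4 * (2 * (k : ℝ) + 1) * g (A k - A (k + 1)) := by
  classical
  set T : ℕ → Finset E := fun k => univ.filter fun b =>
    (ρ (u b) o = k ∧ ρ (v b) o = k + 1) ∨ (ρ (u b) o = k + 1 ∧ ρ (v b) o = k) with hT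
  have hpt : ∀ b, g (A (ρ (u b) o) - A (ρ (v b) o))
      ≤ ∑ k ∈ range M, if b ∈ T k then g (A k - A (k + 1)) else 0 := by
    intro b
    have hnn : 0 ≤ ∑ k ∈ range M, if b ∈ T k then g (A k - A (k + 1)) else 0 :=
      sum_nonneg fun k _ => by split_ifs <;> simp [hg]
    have one : ∀ k, k < M → b ∈ T k → g (A k - A (k + 1))
        ≤ ∑ k ∈ range M, if b ∈ T k then g (A k - A (k + 1)) else 0 := by
      intro k hk hb
      have := single_le_sum (f := fun k => if b ∈ T k then g (A k - A (k + 1)) else 0)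
        (fun k _ => by split_ifs <;> simp [hg]) (mem_range.2 hk)
      simpa [hb] using this
    have pair : ∀ k, b ∈ T k → g (A k - A (k + 1))
        ≤ ∑ k ∈ range M, if b ∈ T k then g (A k - A (k + 1)) else 0 := by
      intro k hb
      by_cases hk : k < M
      · exact one k hk hb
      · rw [hA _ (not_lt.1 hk), hA (k + 1) (by omega), sub_self, hg0]
        exact hnn
    rcases (show ρ (v b) o = ρ (u b) o ∨ ρ (v b) o = ρ (u b) o + 1 ∨
        ρ (u b) o = ρ (v b) o + 1 by have := G.step b o; omega) with h | h | h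
    · rw [h, sub_self, hg0]; exact hnn
    · rw [h]; exact pair _ (by simp [hT, h])
    · rw [h, ← hge, neg_sub]; exact pair _ (by simp [hT, h])
  refine (sum_le_sum fun b _ => hpt b).trans ?_
  rw [sum_comm]
  refine sum_le_sum fun k hk => ?_
  rw [sum_ite_mem, univ_inter, sum_const, nsmul_eq_mul]
  refine mul_le_mul_of_nonneg_right ?_ (hg _)
  have h := G.ring o k (lt_of_lt_of_le (mem_range.1 hk) hM)
  rw [Nat.card_eq_fintype_card, Fintype.card_subtype] at h
  calc ((T k).card : ℝ) ≤ ((4 * (2 * k + 1) : ℕ) : ℝ) := by exact_mod_cast h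
    _ = _ := by push_cast; ring

/-- Bond sums of quadratically bounded functions of the profile. -/
lemma Geo.prf_bond_sum (G : Geo u v ρ cap) {K M : ℕ} (hK : 1 ≤ K) (hKM : K ≤ M) (hM : M ≤ cap) {g : ℝ → ℝ}
    (hg : ∀ t, 0 ≤ g t) (hg0 : g 0 = 0) (hge : ∀ t, g (-t) = g t) {c : ℝ} (hc : 0 ≤ c)
    (hgc : ∀ t, |t| ≤ 1 / (K : ℝ) → g t ≤ c * t ^ 2) (o : V) :
    ∑ b, g (prf K M (ρ (u b) o) - prf K M (ρ (v b) o))
      ≤ 4 * c * (2 + 1 / (K : ℝ)) * (1 / (K : ℝ) + (Real.log M - Real.log K)) := by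
  refine (G.bond_sum hM (fun k hk => (prf_out hKM hk).trans (prf_out hKM le_rfl).symm)
    hg hg0 hge o).trans ?_
  refine le_trans (le_of_eq (sum_subset (s₁ := Ico K M) (fun k hk => ?_) fun k hk hk' => ?_).symm) ?_
  · simp only [mem_Ico] at hk; exact mem_range.2 hk.2
  · rcases prf_diff (K := K) (M := M) hK k with ⟨h1, h2, -⟩ | h
    · exact absurd (mem_Ico.2 ⟨h1, h2⟩) hk'
    · rw [h, hg0, mul_zero]
  refine le_trans (sum_le_sum (s := Ico K M)
    (g := fun k : ℕ => 4 * c * (2 + 1 / (K : ℝ)) * (1 / (k : ℝ))) fun k hk => ?_) ?_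
  · obtain ⟨hk1, hk2⟩ := mem_Ico.1 hk
    have hkpos : (0 : ℝ) < k := by exact_mod_cast (show 0 < k by omega)
    have hKk : 1 / (k : ℝ) ≤ 1 / (K : ℝ) :=
      one_div_le_one_div_of_le (by exact_mod_cast hK) (by exact_mod_cast hk1)
    have hd : |prf K M k - prf K M (k + 1)| ≤ 1 / (k : ℝ) := by
      rcases prf_diff (K := K) (M := M) hK k with ⟨-, -, h⟩ | h
      · exact h
      · rw [h, abs_zero]; positivity
    have h2 : g (prf K M k - prf K M (k + 1)) ≤ c * (1 / (k : ℝ)) ^ 2 :=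
      (hgc _ (hd.trans hKk)).trans
        (mul_le_mul_of_nonneg_left (by rw [← sq_abs]; gcongr) hc)
    calc 4 * (2 * (k : ℝ) + 1) * g (prf K M k - prf K M (k + 1))
        ≤ 4 * (2 * (k : ℝ) + 1) * (c * (1 / (k : ℝ)) ^ 2) :=
          mul_le_mul_of_nonneg_left h2 (by positivity)
      _ = 4 * c * (2 + 1 / (k : ℝ)) * (1 / (k : ℝ)) := by field_simp
      _ ≤ 4 * c * (2 + 1 / (K : ℝ)) * (1 / (k : ℝ)) := by gcongr
  · rw [← mul_sum]
    exact mul_le_mul_of_nonneg_left (sum_inv_le hK hKM) (by positivity)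

end Vale.Agent.P163.Free
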