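/-
P163 (two-dimensional spin models): linear response to a weak field in a plane, without any
reflection positivity.
-/
import Vale.Agent.P163.Free.Aniso
import Vale.Agent.P163.Free.Geo

open MeasureTheory Filter Topology
open scoped InnerProductSpace

noncomputable section

namespace Vale.Agent.P163.Free

open Decay

variable {n : ℕ} {V E : Type*} [Fintype V] [Fintype E] (u v : E → V)

lemma wt_swap (β : ℝ) (i j : Fin n) (W : V → ℝ) : wt u v β i j W = wt u v β j i W := by
  funext σ
  simp only [wt, pl, add_comm (co (σ _) i ^ 2)]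

lemma second_moment_le (hn : 0 < n) (β : ℝ) (i j : Fin n) (W : V → ℝ) (o : V) {η : ℝ}
    (h : ∀ k, k ≠ i → |∫ σ, (co (σ o) k ^ 2 - co (σ o) i ^ 2) * wt u v β i j W σ ∂cm V n|
      ≤ η * pf u v β i j W) (hη : 0 ≤ η) :
    ∫ σ, co (σ o) i ^ 2 * wt u v β i j W σ ∂cm V n ≤ (1 / (n : ℝ) + η) * pf u v β i j W := by
  set I : Fin n → ℝ := fun k => ∫ σ, co (σ o) k ^ 2 * wt u v β i j W σ ∂cm V n with hI
  have hsum : ∑ k, I k = pf u v β i j W := by
    simp only [hI]
    rw [← integral_finsetSum]
    · simp [← Finset.sum_mul, sum_co_sq, pf]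
    · exact fun k _ => integrable_cm (by fun_prop)
  have hk : ∀ k, I i ≤ I k + η * pf u v β i j W := by
    intro k
    by_cases hki : k = i
    · subst hki
      have := pf_pos u v hn β k j W
      nlinarith
    · have h1 := h k hki
      simp only [sub_mul] at h1
      rw [integral_sub (integrable_cm (by fun_prop)) (integrable_cm (by fun_prop))] at h1
      have := (abs_le.1 h1).1
      simp only [hI]
      linarith
  have h2 := Finset.sum_le_sum (s := Finset.univ) fun k _ => hk k
  rw [Finset.sum_add_distrib, hsum] at h2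
  simp only [Finset.sum_const, Finset.card_univ, Fintype.card_fin, nsmul_eq_mul] at h2
  have hn' : (0 : ℝ) < n := by exact_mod_cast hn
  show I i ≤ _
  refine le_of_mul_le_mul_left ?_ hn'
  calc (n : ℝ) * I i ≤ pf u v β i j W + n * (η * pf u v β i j W) := h2
    _ = _ := by field_simp

/-- The weight of a field weakens the anisotropy bound only through its local size. -/
lemma aniso_uniform {β : ℝ} (hβ : 0 ≤ β) {η : ℝ} (hη : 0 < η) :
    ∃ h0 : ℝ, 0 < h0 ∧ ∃ R : ℕ, ∀ {V E : Type} [Fintype V] [Fintype E] (u v : E → V)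
      (ρ : V → V → ℕ) (cap : ℕ), Geo u v ρ cap → R ≤ cap → ∀ i j k : Fin n, i ≠ j → i ≠ k →
      ∀ W : V → ℝ, (∀ x, 0 ≤ W x ∧ W x ≤ h0) → ∀ o : V,
        |∫ σ, (co (σ o) k ^ 2 - co (σ o) i ^ 2) * wt u v β i j W σ ∂cm V n|
          ≤ η * pf u v β i j W := by
  set R : ℕ := ⌈Real.exp (max 1 (192 * β / η ^ 2))⌉₊ with hR
  have hRpos : (0 : ℝ) < R := lt_of_lt_of_le (Real.exp_pos _) (Nat.le_ceil _)
  have hR1 : 1 ≤ R := by exact_mod_cast hRpos
  have hlog : max 1 (192 * β / η ^ 2) ≤ Real.log R := by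
    rw [← Real.log_exp (max 1 (192 * β / η ^ 2))]
    exact Real.log_le_log (Real.exp_pos _) (Nat.le_ceil _)
  have hl1 : 1 ≤ Real.log R := (le_max_left _ _).trans hlog
  have hl2 : 192 * β ≤ η ^ 2 * Real.log R := by
    have := (le_max_right _ _).trans hlog
    rwa [div_le_iff₀ (by positivity), mul_comm (Real.log _)] at this
  set s := Real.pi / 4 / Real.log R with hs
  have hs1 : s * Real.log R ≤ 1 ∧ 0 ≤ s * Real.log R := by
    rw [hs, div_mul_cancel₀ _ (by linarith)]
    constructor <;> linarith [Real.pi_le_four, Real.pi_pos]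
  have hgrad : β * (12 * (1 + Real.log R) * s ^ 2) / 2 ≤ η ^ 2 / 16 := by
    have h1 : s ^ 2 * (1 + Real.log R) * Real.log R ≤ 2 := by
      have h : (1 + Real.log R) / Real.log R ≤ 2 := by
        rw [div_le_iff₀ (by linarith)]; linarith
      calc s ^ 2 * (1 + Real.log R) * Real.log R
          = (s * Real.log R) ^ 2 * ((1 + Real.log R) / Real.log R) := by field_simp
        _ ≤ 1 * 2 := mul_le_mul (by nlinarith) h (by positivity) zero_le_one
        _ = 2 := one_mul 2
    have h2 : β * (12 * (1 + Real.log R) * s ^ 2) / 2 * Real.log R ≤ η ^ 2 / 16 * Real.log R := by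
      nlinarith [mul_le_mul_of_nonneg_left h1 hβ]
    exact le_of_mul_le_mul_right h2 (by linarith)
  refine ⟨η ^ 2 / (16 * (2 * (R : ℝ) + 1) ^ 2), by positivity, R, ?_⟩
  intro V E _ _ u v ρ cap G hcap i j k hij hik W hW o
  set φ : V → ℝ := fun x => s * prf 1 R (ρ x o) with hφ
  have hφo : φ o = Real.pi / 4 := by
    simp only [hφ, G.self, prf_in, Nat.cast_one, Real.log_one, sub_zero, hs]
    field_simp
  have hbond : ∑ b, (φ (u b) - φ (v b)) ^ 2 ≤ 12 * (1 + Real.log R) * s ^ 2 := by
    have h1 := G.prf_bond_sum (g := fun t => s ^ 2 * t ^ 2) (c := s ^ 2) le_rfl hR1 hcap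
      (fun t => by positivity) (by simp) (fun t => by simp) (sq_nonneg s) (fun t _ => le_rfl) o
    simp only [hφ, ← mul_sub, mul_pow]
    refine h1.trans (le_of_eq ?_)
    simp only [Nat.cast_one, Real.log_one, sub_zero, div_one]
    ring
  have hfield : ∑ x, (if φ x = 0 then 0 else W x) ≤ η ^ 2 / 16 := by
    classical
    refine le_trans (Finset.sum_le_sum (g := fun x =>
      if ρ x o ≤ R then η ^ 2 / (16 * (2 * (R : ℝ) + 1) ^ 2) else 0) fun x _ => ?_) ?_
    · by_cases hx : ρ x o ≤ R
      · rw [if_pos hx]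
        split_ifs
        · positivity
        · exact (hW x).2
      · rw [if_pos (by simp only [hφ]; rw [prf_out hR1 (le_of_not_ge hx), mul_zero]), if_neg hx]
    · rw [← Finset.sum_filter, Finset.sum_const, nsmul_eq_mul]
      have hb := G.ball o R
      rw [Nat.card_eq_fintype_card, Fintype.card_subtype] at hb
      calc _ ≤ (2 * (R : ℝ) + 1) ^ 2 * (η ^ 2 / (16 * (2 * (R : ℝ) + 1) ^ 2)) :=
            mul_le_mul_of_nonneg_right (by exact_mod_cast hb) (by positivity)
        _ = η ^ 2 / 16 := by field_simp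
  have hC : β * (∑ b, (φ (u b) - φ (v b)) ^ 2) / 2 + ∑ x, (if φ x = 0 then 0 else W x)
      ≤ η ^ 2 / 8 := by
    have := mul_le_mul_of_nonneg_left hbond hβ
    linarith
  refine (aniso u v hβ hij hik (fun x => (hW x).1) hφo hC (t := η / 4) (by positivity)).trans
    (le_of_eq ?_)
  field_simp
  ring

/-- A weak field in a plane changes the free energy by at most `2 / n` times the total field. -/
lemma field_bound (hn : 0 < n) {β : ℝ} (hβ : 0 ≤ β) {ε : ℝ} (hε : 0 < ε) :
    ∃ h0 : ℝ, 0 < h0 ∧ ∃ R : ℕ, ∀ {V E : Type} [Fintype V] [Fintype E] (u v : E → V)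
      (ρ : V → V → ℕ) (cap : ℕ), Geo u v ρ cap → R ≤ cap → ∀ i j : Fin n, i ≠ j →
      ∀ W : V → ℝ, (∀ x, 0 ≤ W x ∧ W x ≤ h0) →
        pf u v β i j W ≤ Real.exp ((2 / (n : ℝ) + ε) * ∑ x, W x) * pf u v β i j (0 : V → ℝ) := by
  obtain ⟨h0, hh0, R, hR⟩ := aniso_uniform (n := n) hβ (half_pos hε)
  refine ⟨h0, hh0, R, ?_⟩
  intro V B _ _ u v ρ cap G hcap i j hij W hW
  set S : (V → Sn n) → ℝ := fun σ => ∑ x, W x * pl i j (σ x) with hS
  have hcS : Continuous S := by simp only [S]; fun_prop
  have hZ := pf_pos u v hn β i j W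
  have hmom : ∀ o, ∫ σ, W o * pl i j (σ o) * wt u v β i j W σ ∂cm V n
      ≤ W o * ((2 / (n : ℝ) + ε) * pf u v β i j W) := by
    intro o
    simp only [mul_assoc]
    rw [integral_const_mul]
    refine mul_le_mul_of_nonneg_left ?_ (hW o).1
    have hi := second_moment_le u v hn β i j W o
      (fun k hk => hR u v ρ cap G hcap i j k hij (Ne.symm hk) W hW o) (by linarith)
    have hj := second_moment_le u v hn β j i W o
      (fun k hk => hR u v ρ cap G hcap j i k (Ne.symm hij) (Ne.symm hk) W hW o) (by linarith)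
    rw [pf, wt_swap u v β j i, ← pf] at hj
    simp only [pl, add_mul]
    rw [integral_add (integrable_cm (by fun_prop)) (integrable_cm (by fun_prop))]
    refine (add_le_add hi hj).trans (le_of_eq ?_)
    ring
  set A := (∫ σ, S σ * wt u v β i j W σ ∂cm V n) / pf u v β i j W with hA
  have hAle : A ≤ (2 / (n : ℝ) + ε) * ∑ x, W x := by
    simp only [hA, S, Finset.sum_mul]
    rw [div_le_iff₀ hZ, integral_finsetSum _ fun x _ => integrable_cm (by fun_prop)]
    refine (Finset.sum_le_sum fun o _ => hmom o).trans (le_of_eq ?_)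
    rw [← Finset.sum_mul]
    ring
  have hw : ∀ σ, Real.exp (-A) * ((1 + A) * wt u v β i j W σ - S σ * wt u v β i j W σ)
      ≤ wt u v β i j (0 : V → ℝ) σ := by
    intro σ
    have e : wt u v β i j (0 : V → ℝ) σ
        = Real.exp (-A) * Real.exp (A - S σ) * wt u v β i j W σ := by
      simp only [wt, S, ← Real.exp_add, Pi.zero_apply, zero_mul, Finset.sum_const_zero]
      congr 1
      ring
    rw [e, mul_assoc]
    refine mul_le_mul_of_nonneg_left ?_ (Real.exp_pos _).le
    rw [← sub_mul]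
    exact mul_le_mul_of_nonneg_right (by linarith [Real.add_one_le_exp (A - S σ)])
      (wt_pos u v β i j W σ).le
  have h := integral_mono (μ := cm V n) (integrable_cm (by fun_prop))
    (integrable_cm (continuous_wt u v β i j 0)) hw
  rw [integral_const_mul, integral_sub (integrable_cm (by fun_prop))
    (integrable_cm (by fun_prop)), integral_const_mul] at h
  have hAS : A * pf u v β i j W = ∫ σ, S σ * wt u v β i j W σ ∂cm V n :=
    div_mul_cancel₀ _ hZ.ne'
  rw [← hAS] at h
  have h' : Real.exp (-A) * pf u v β i j W ≤ pf u v β i j (0 : V → ℝ) := by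
    calc Real.exp (-A) * pf u v β i j W
        = Real.exp (-A) * ((1 + A) * pf u v β i j W - A * pf u v β i j W) := by ring
      _ ≤ _ := h
  calc pf u v β i j W = Real.exp A * (Real.exp (-A) * pf u v β i j W) := by
        rw [← mul_assoc, ← Real.exp_add, add_neg_cancel, Real.exp_zero, one_mul]
    _ ≤ Real.exp A * pf u v β i j (0 : V → ℝ) :=
        mul_le_mul_of_nonneg_left h' (Real.exp_pos _).le
    _ ≤ _ := mul_le_mul_of_nonneg_right (Real.exp_le_exp.2 hAle) (pf_pos u v hn β i j 0).le

end Vale.Agent.P163.Free
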