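/-
P163 (two-dimensional spin models): free boxes and rectangular tori have planar ring sizes.
-/
import Vale.Agent.P163.Free.Geo
import Vale.Agent.P163.Free.Defs

open Finset

noncomputable section

namespace Vale.Agent.P163.Free

/-- The bonds inside a finite set of sites. -/
abbrev BoxBond (box : Finset (ℤ × ℤ)) :=
  {p : box × box // p.2.1 = p.1.1 + (1, 0) ∨ p.2.1 = p.1.1 + (0, 1)}

lemma card_cross (k : ℕ) :
    ((({(k : ℤ), -(k : ℤ) - 1} : Finset ℤ) ×ˢ Icc (-(k : ℤ)) k) ×ˢ
      (univ : Finset Bool)).card ≤ 4 * (2 * k + 1) := by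
  rw [card_product, card_product, Int.card_Icc, Finset.card_univ, Fintype.card_bool]
  have h : ({(k : ℤ), -(k : ℤ) - 1} : Finset ℤ).card ≤ 2 := card_le_two
  calc _ ≤ 2 * ((k : ℤ) + 1 - -(k : ℤ)).toNat * 2 :=
        Nat.mul_le_mul_right 2 (Nat.mul_le_mul_right _ h)
    _ = _ := by rw [show ((k : ℤ) + 1 - -(k : ℤ)).toNat = 2 * k + 1 by omega]; ring

lemma box_geo (box : Finset (ℤ × ℤ)) (cap : ℕ) :
    Geo (fun b : BoxBond box => b.1.1) (fun b => b.1.2) (fun x y => supDist x.1 y.1) cap where
  self o := by simp [supDist]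
  symm x y := by simp only [supDist]; omega
  tri x y z := by simp only [supDist]; omega
  step b o := by
    obtain ⟨⟨x, y⟩, h⟩ := b
    simp only [supDist]
    rcases h with h | h <;> simp only at h <;> rw [h] <;> simp <;> omega
  degu x := by
    classical
    rw [Nat.card_eq_fintype_card, ← Fintype.card_bool]
    refine Fintype.card_le_of_injective (fun b => decide (b.1.1.2.1 = b.1.1.1.1 + (1, 0))) ?_
    rintro ⟨⟨⟨a, c⟩, h⟩, e⟩ ⟨⟨⟨a', c'⟩, h'⟩, e'⟩ hb
    simp only at e e' h h'
    subst e e'
    simp only [decide_eq_decide] at hb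
    have : c = c' := Subtype.ext <| by
      rcases h with h | h <;> rcases h' with h' | h' <;> simp_all
    simp [this]
  degv x := by
    classical
    rw [Nat.card_eq_fintype_card, ← Fintype.card_bool]
    refine Fintype.card_le_of_injective (fun b => decide (b.1.1.2.1 = b.1.1.1.1 + (1, 0))) ?_
    rintro ⟨⟨⟨a, c⟩, h⟩, e⟩ ⟨⟨⟨a', c'⟩, h'⟩, e'⟩ hb
    simp only at e e' h h'
    subst e e'
    simp only [decide_eq_decide] at hb
    have : a = a' := Subtype.ext <| by
      rcases h with h | h <;> rcases h' with h' | h' <;> simp_all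
    simp [this]
  ring o k _ := by
    classical
    rw [Nat.card_eq_fintype_card, Fintype.card_subtype]
    refine le_trans (card_le_card_of_injOn (fun b : BoxBond box =>
      if b.1.2.1 = b.1.1.1 + (1, 0) then ((b.1.1.1.1 - o.1.1, b.1.1.1.2 - o.1.2), true)
      else ((b.1.1.1.2 - o.1.2, b.1.1.1.1 - o.1.1), false)) (fun b hb => ?_) ?_) (card_cross k)
    · obtain ⟨⟨x, y⟩, h⟩ := b
      replace hb := (Finset.mem_filter.1 (Finset.mem_coe.1 hb)).2
      simp only [supDist] at hb
      simp only at h
      simp only [coe_product, coe_univ, Set.mem_prod, coe_insert, coe_singleton,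
        Set.mem_insert_iff, Set.mem_singleton_iff, coe_Icc, Set.mem_Icc, Set.mem_univ, and_true]
      rcases h with h | h
      · rw [if_pos h]
        dsimp only
        simp only [Prod.ext_iff, Prod.fst_add, Prod.snd_add] at h
        omega
      · rw [if_neg (fun e => by rw [h] at e; simp [Prod.ext_iff] at e)]
        dsimp only
        simp only [Prod.ext_iff, Prod.fst_add, Prod.snd_add] at h
        omega
    · rintro ⟨⟨x, y⟩, h⟩ _ ⟨⟨x', y'⟩, h'⟩ _ hb
      simp only at h h' hb
      have e1 : x = x' := Subtype.ext <| by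
        split_ifs at hb <;> simp only [Prod.mk.injEq, Bool.true_eq_false, Bool.false_eq_true,
          and_false] at hb <;> exact Prod.ext (by omega) (by omega)
      subst e1
      have e2 : y = y' := Subtype.ext <| by
        rcases h with h | h <;> rcases h' with h' | h' <;>
          simp only [h, h', if_true] at hb ⊢ <;> simp [Prod.ext_iff] at hb
      subst e2
      rfl
  ball o R := by
    classical
    rw [Nat.card_eq_fintype_card, Fintype.card_subtype]
    refine le_trans (card_le_card_of_injOn (fun x : box => (x.1.1 - o.1.1, x.1.2 - o.1.2))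
      (t := Icc (-(R : ℤ)) R ×ˢ Icc (-(R : ℤ)) R) (fun x hx => ?_) ?_) ?_
    · simp [supDist] at hx
      simp only [coe_product, Set.mem_prod, coe_Icc, Set.mem_Icc]
      omega
    · intro x _ y _ h
      simp only [Prod.mk.injEq] at h
      exact Subtype.ext (Prod.ext (by omega) (by omega))
    · rw [card_product, Int.card_Icc, sq]
      exact Nat.mul_le_mul (by omega) (by omega)

lemma vma_succ {L : ℕ} [NeZero L] (a : ZMod L) :
    (a + 1).valMinAbs = a.valMinAbs + 1 ∨
      (a.valMinAbs = (L / 2 : ℕ) ∧ (a + 1).valMinAbs = (L / 2 : ℕ) + 1 - (L : ℤ)) := by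
  have h := a.val_lt
  have hL : 0 < L := Nat.pos_of_ne_zero (NeZero.ne L)
  have hs : (a + 1).val = if a.val + 1 < L then a.val + 1 else 0 := by
    have e : a + 1 = ((a.val + 1 : ℕ) : ZMod L) := by push_cast [ZMod.natCast_zmod_val]; rfl
    rw [e, ZMod.val_natCast]
    split_ifs with h1
    · exact Nat.mod_eq_of_lt h1
    · rw [show a.val + 1 = L by omega, Nat.mod_self]
  rw [ZMod.valMinAbs_def_pos, ZMod.valMinAbs_def_pos, hs]
  push_cast
  split_ifs <;> omega

variable {a b : ℕ} [NeZero a] [NeZero b]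

/-- The periodic sup distance. -/
def rhoT (x y : ZMod a × ZMod b) : ℕ :=
  max (x - y).1.valMinAbs.natAbs (x - y).2.valMinAbs.natAbs

lemma torus_geo :
    Geo (fun e : (ZMod a × ZMod b) × Bool => e.1)
      (fun e => e.1 + if e.2 then (1, 0) else (0, 1)) rhoT (min (a / 2) (b / 2) - 1) where
  self o := by simp [rhoT]
  symm x y := by
    simp only [rhoT, Prod.fst_sub, Prod.snd_sub]
    rw [← ZMod.natAbs_valMinAbs_neg (x.1 - y.1), ← ZMod.natAbs_valMinAbs_neg (x.2 - y.2), neg_sub,
      neg_sub]
  tri x y z := by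
    have h1 := (ZMod.natAbs_valMinAbs_add_le (x - y).1 (y - z).1).trans (Int.natAbs_add_le _ _)
    have h2 := (ZMod.natAbs_valMinAbs_add_le (x - y).2 (y - z).2).trans (Int.natAbs_add_le _ _)
    simp only [← Prod.fst_add, ← Prod.snd_add, sub_add_sub_cancel] at h1 h2
    simp only [rhoT]
    omega
  step e o := by
    obtain ⟨x, d⟩ := e
    have h1 := vma_succ (x.1 - o.1)
    have h2 := vma_succ (x.2 - o.2)
    rw [sub_add_eq_add_sub] at h1 h2
    cases d <;> simp [rhoT] <;> omega
  degu x := by
    rw [Nat.card_eq_fintype_card, ← Fintype.card_bool]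
    refine Fintype.card_le_of_injective (fun e => e.1.2) ?_
    rintro ⟨⟨y, d⟩, h⟩ ⟨⟨y', d'⟩, h'⟩ hd
    simp only at h h' hd
    simp [h, h', hd]
  degv x := by
    rw [Nat.card_eq_fintype_card, ← Fintype.card_bool]
    refine Fintype.card_le_of_injective (fun e => e.1.2) ?_
    rintro ⟨⟨y, d⟩, h⟩ ⟨⟨y', d'⟩, h'⟩ hd
    simp only at h h' hd
    subst hd
    rw [← h'] at h
    simp [add_right_cancel h]
  ring o k hk := by
    classical
    rw [Nat.card_eq_fintype_card, Fintype.card_subtype]
    refine le_trans (card_le_card_of_injOn (fun e : (ZMod a × ZMod b) × Bool =>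
      if e.2 then (((e.1 - o).1.valMinAbs, (e.1 - o).2.valMinAbs), true)
      else (((e.1 - o).2.valMinAbs, (e.1 - o).1.valMinAbs), false)) (fun e he => ?_) ?_)
      (card_cross k)
    · obtain ⟨x, d⟩ := e
      have h1 := vma_succ (x.1 - o.1)
      have h2 := vma_succ (x.2 - o.2)
      rw [sub_add_eq_add_sub] at h1 h2
      replace he := (Finset.mem_filter.1 (Finset.mem_coe.1 he)).2
      simp only [rhoT] at he
      simp only [coe_product, coe_univ, Set.mem_prod, coe_insert, coe_singleton,
        Set.mem_insert_iff, Set.mem_singleton_iff, coe_Icc, Set.mem_Icc, Set.mem_univ, and_true]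
      cases d <;> simp at he ⊢ <;> omega
    · rintro ⟨x, d⟩ _ ⟨x', d'⟩ _ h
      cases d <;> cases d' <;> simp [Prod.ext_iff, ZMod.valMinAbs_inj] at h ⊢ <;>
        exact ⟨by tauto, by tauto⟩
  ball o R := by
    classical
    rw [Nat.card_eq_fintype_card, Fintype.card_subtype]
    refine le_trans (card_le_card_of_injOn
      (fun x : ZMod a × ZMod b => ((x - o).1.valMinAbs, (x - o).2.valMinAbs))
      (t := Icc (-(R : ℤ)) R ×ˢ Icc (-(R : ℤ)) R) (fun x hx => ?_) ?_) ?_
    · simp [rhoT] at hx
      simp only [coe_product, Set.mem_prod, coe_Icc, Set.mem_Icc, Prod.fst_sub, Prod.snd_sub]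
      omega
    · intro x _ y _ h
      simp only [Prod.mk.injEq, ZMod.valMinAbs_inj] at h
      simpa using (Prod.ext h.1 h.2 : x - o = y - o)
    · rw [card_product, Int.card_Icc, sq]
      exact Nat.mul_le_mul (by omega) (by omega)

end Vale.Agent.P163.Free
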