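/-
P163 (two-dimensional spin models): algebraic decay with exponent linear in the number of components,
on finite graphs with planar ring sizes.
-/
import Vale.Agent.P163.Free.Complex
import Vale.Agent.P163.Free.Field

open MeasureTheory Filter Topology
open scoped InnerProductSpace

noncomputable section

namespace Vale.Agent.P163.Free

open Decay

variable {n : ℕ} {V E : Type*} [Fintype V] [Fintype E] (u v : E → V)

lemma cosh_sub_one_le {t u : ℝ} (h : t ^ 2 / 2 ≤ u) :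
    Real.cosh t - 1 ≤ Real.exp u * (t ^ 2 / 2) := by
  have h1 := Real.cosh_le_exp_half_sq t
  have h2 : Real.exp (t ^ 2 / 2) * (1 - t ^ 2 / 2) ≤ 1 := by
    have := mul_le_mul_of_nonneg_left (show 1 - t ^ 2 / 2 ≤ Real.exp (-(t ^ 2 / 2)) by
      linarith [Real.add_one_le_exp (-(t ^ 2 / 2))]) (Real.exp_pos (t ^ 2 / 2)).le
    rwa [← Real.exp_add, add_neg_cancel, Real.exp_zero] at this
  have h3 := mul_le_mul_of_nonneg_right (Real.exp_le_exp.2 h) (show 0 ≤ t ^ 2 / 2 by positivity)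
  nlinarith

lemma exp_le_one_add {u δ : ℝ} (h0 : 0 ≤ u) (hu : u ≤ δ / 2) (hδ : δ ≤ 1) :
    Real.exp u ≤ 1 + δ := by
  refine (Real.exp_bound_div_one_sub_of_interval h0 (by linarith)).trans ?_
  rw [div_le_iff₀ (by linarith)]
  nlinarith

lemma corr_eq_planar (β : ℝ) {i j : Fin n} (o x : V) :
    ∫ σ, ⟪(σ o : EuclideanSpace ℝ (Fin n)), σ x⟫_ℝ * wt u v β i j 0 σ ∂cm (V) n
      = (n : ℝ) / 2 * ∫ σ, (co (σ o) i * co (σ x) i + co (σ o) j * co (σ x) j) * wt u v β i j 0 σ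
          ∂cm (V) n := by
  set J : Fin n → ℝ := fun k => ∫ σ, co (σ o) k * co (σ x) k * wt u v β i j 0 σ ∂cm (V) n with hJ
  have hperm : ∀ k, J k = J i := by
    intro k
    simp only [hJ]
    rw [← integral_act (fun _ => perm (Equiv.swap k i))
      (G := fun σ : V → Sn n => co (σ o) i * co (σ x) i * wt u v β i j 0 σ) (by fun_prop)]
    refine integral_congr_ae (Eventually.of_forall fun σ => ?_)
    simp [wt, ham, inner_perm, co_perm]
  have hl : ∫ σ, ⟪(σ o : EuclideanSpace ℝ (Fin n)), σ x⟫_ℝ * wt u v β i j 0 σ ∂cm (V) n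
      = ∑ k, J k := by
    simp only [hJ, inner_eq, Finset.sum_mul]
    exact integral_finsetSum _ fun k _ => integrable_cm (by fun_prop)
  have hr : ∫ σ, (co (σ o) i * co (σ x) i + co (σ o) j * co (σ x) j) * wt u v β i j 0 σ ∂cm (V) n
      = J i + J j := by
    simp only [hJ, add_mul]
    exact integral_add (integrable_cm (by fun_prop)) (integrable_cm (by fun_prop))
  rw [hl, hr, Finset.sum_congr rfl fun k _ => hperm k, hperm j]
  simp
  ring

lemma abs_corr_le (β : ℝ) {i j : Fin n} (o x : V) :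
    |∫ σ, ⟪(σ o : EuclideanSpace ℝ (Fin n)), σ x⟫_ℝ * wt u v β i j 0 σ ∂cm (V) n|
      ≤ pf u v β i j (0 : V → ℝ) := by
  refine abs_integral_le_integral_abs.trans (integral_mono (integrable_cm (by fun_prop))
    (integrable_cm (continuous_wt u v β i j 0)) fun σ => ?_)
  show |_ * _| ≤ _
  rw [abs_mul, abs_of_pos (wt_pos u v β i j 0 σ)]
  exact mul_le_of_le_one_left (wt_pos u v β i j 0 σ).le (abs_inner_le _ _)

lemma exponent_arith {n β κ ν δ p u l S : ℝ} (hn : 0 < n) (hβ : 0 < β) (hκ : κ = n / (16 * β))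
    (hν : ν = 1 - p / κ) (hδ : δ = ν / 8) (hν0 : 0 < ν) (hν1 : ν < 1) (hu0 : 0 ≤ u) (hu : u ≤ δ)
    (hl : 0 ≤ l) (hS : S ≤ 4 * β * (1 + δ) * κ ^ 2 * (2 + u) * (u + l)) :
    -(2 * κ * l) + (2 / n + 2 * δ / n) * S ≤ 2 * κ + -(p * l) := by
  have hδ0 : 0 < δ := by linarith
  have hκ0 : 0 < κ := by rw [hκ]; positivity
  have k1 : (2 / n + 2 * δ / n) * S ≤ κ * ((1 + δ) ^ 2 * (1 + u / 2) * (u + l)) := by
    refine (mul_le_mul_of_nonneg_left hS (by positivity)).trans (le_of_eq ?_)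
    rw [hκ]
    field_simp
    ring
  have k2 : (1 + δ) ^ 2 * (1 + u / 2) * (u + l) ≤ (1 + ν) * (1 + l) := by
    refine mul_le_mul ?_ (by linarith) (by positivity) (by linarith)
    calc (1 + δ) ^ 2 * (1 + u / 2) ≤ (1 + δ) ^ 2 * (1 + δ) :=
          mul_le_mul_of_nonneg_left (by linarith) (sq_nonneg _)
      _ ≤ 1 + ν := by
          have e : ν = 8 * δ := by linarith
          rw [e]
          nlinarith [mul_le_mul_of_nonneg_left (show δ ≤ 1 by linarith) hδ0.le]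
  have k3 : κ * ν = κ - p := by rw [hν]; field_simp
  have := mul_le_mul_of_nonneg_left k2 hκ0.le
  have k4 : κ * ((1 + ν) * (1 + l)) = κ * (1 + ν) + κ * l + κ * ν * l := by ring
  rw [k4, k3] at this
  have k5 : κ * (1 + ν) ≤ 2 * κ := by nlinarith
  linarith

variable [DecidableEq V] {u v} {ρ : V → V → ℕ} {cap : ℕ}

/-- The field of the two-centre potential. -/
lemma Geo.potential_bound (G : Geo u v ρ cap) {K M : ℕ} (hK : 1 ≤ K) (hKM : K ≤ M) (hM : M ≤ cap)
    {β κ δ : ℝ} (hβ : 0 ≤ β) (hexp : Real.exp (κ ^ 2 / (2 * (K : ℝ))) ≤ 1 + δ) (hδ : 0 ≤ δ)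
    (o x : V) (hD : 2 * M + 3 ≤ ρ o x) :
    ∑ y, fldA u v β (fun y => κ * (prf K M (ρ y o) - prf K M (ρ y x))) y
        ≤ 4 * β * (1 + δ) * κ ^ 2 * (2 + 1 / (K : ℝ)) * (1 / (K : ℝ) + (Real.log M - Real.log K))
      ∧ ∀ y, fldA u v β (fun y => κ * (prf K M (ρ y o) - prf K M (ρ y x))) y
        ≤ β * (1 + δ) * κ ^ 2 / (K : ℝ) ^ 2 := by
  set g : ℝ → ℝ := fun t => Real.cosh (κ * t) - 1 with hg
  set A : V → ℝ := fun y => prf K M (ρ y o) with hA
  set B : V → ℝ := fun y => prf K M (ρ y x) with hB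
  have hK' : (0 : ℝ) < K := by exact_mod_cast hK
  have hg0 : g 0 = 0 := by simp [hg]
  have hgn : ∀ t, 0 ≤ g t := fun t => sub_nonneg.2 (Real.one_le_cosh _)
  have hge : ∀ t, g (-t) = g t := fun t => by simp [hg]
  have hgc : ∀ t, |t| ≤ 1 / (K : ℝ) → g t ≤ (1 + δ) * κ ^ 2 / 2 * t ^ 2 := by
    intro t ht
    have ht2 : t ^ 2 ≤ 1 / (K : ℝ) := by
      rw [← sq_abs]
      refine (pow_le_pow_left₀ (abs_nonneg _) ht 2).trans ?_
      rw [sq]
      exact mul_le_of_le_one_left (by positivity)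
        ((div_le_one hK').2 (by exact_mod_cast hK))
    have h : (κ * t) ^ 2 / 2 ≤ κ ^ 2 / (2 * (K : ℝ)) := by
      rw [mul_pow, show κ ^ 2 / (2 * (K : ℝ)) = κ ^ 2 * (1 / (K : ℝ)) / 2 by ring]
      gcongr
    calc g t ≤ Real.exp (κ ^ 2 / (2 * (K : ℝ))) * ((κ * t) ^ 2 / 2) := cosh_sub_one_le h
      _ ≤ (1 + δ) * ((κ * t) ^ 2 / 2) := mul_le_mul_of_nonneg_right hexp (by positivity)
      _ = _ := by ring
  have hsep : ∀ b, A (u b) - A (v b) = 0 ∨ B (u b) - B (v b) = 0 := by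
    intro b
    have near : ∀ c, prf K M (ρ (u b) c) - prf K M (ρ (v b) c) ≠ 0 → ρ (u b) c ≤ M + 1 := by
      intro c hne
      by_contra hgt
      have hst := G.step b c
      exact hne (by rw [prf_out hKM (by omega), prf_out hKM (by omega), sub_self])
    by_contra hne
    rw [not_or] at hne
    have h1 := near o hne.1
    have h2 := near x hne.2
    have h3 := G.tri o (u b) x
    rw [G.symm o (u b)] at h3
    omega
  have hsmall : ∀ c b, |prf K M (ρ (u b) c) - prf K M (ρ (v b) c)| ≤ 1 / (K : ℝ) := fun c b =>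
    prf_step hK _ _ (G.step b c).2 (G.step b c).1
  set a : V → ℝ := fun y => κ * (A y - B y) with ha
  have hb : ∀ b, Real.cosh (a (u b) - a (v b)) - 1
        ≤ g (A (u b) - A (v b)) + g (B (u b) - B (v b)) ∧
      Real.cosh (a (u b) - a (v b)) - 1 ≤ (1 + δ) * κ ^ 2 / (2 * (K : ℝ) ^ 2) := by
    intro b
    have hcase : Real.cosh (a (u b) - a (v b)) - 1 = g (A (u b) - A (v b)) ∧
          B (u b) - B (v b) = 0 ∨
        Real.cosh (a (u b) - a (v b)) - 1 = g (B (u b) - B (v b)) ∧ A (u b) - A (v b) = 0 := by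
      rcases hsep b with h | h
      · refine Or.inr ⟨?_, h⟩
        rw [← hge]
        simp only [hg, ha]
        congr 2
        linear_combination κ * h
      · refine Or.inl ⟨?_, h⟩
        simp only [hg, ha]
        congr 2
        linear_combination -κ * h
    have hq : ∀ t, |t| ≤ 1 / (K : ℝ) → g t ≤ (1 + δ) * κ ^ 2 / (2 * (K : ℝ) ^ 2) := by
      intro t ht
      refine (hgc t ht).trans ?_
      rw [show (1 + δ) * κ ^ 2 / (2 * (K : ℝ) ^ 2) = (1 + δ) * κ ^ 2 / 2 * (1 / (K : ℝ)) ^ 2 by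
        ring, ← sq_abs t]
      gcongr
    rcases hcase with ⟨h, h'⟩ | ⟨h, h'⟩ <;> rw [h, h', hg0]
    · exact ⟨by simp, hq _ (hsmall o b)⟩
    · exact ⟨by simp, hq _ (hsmall x b)⟩
  have hc0 : 0 ≤ (1 + δ) * κ ^ 2 / 2 := by positivity
  constructor
  · have hsum : ∑ y, fldA u v β a y = β * ∑ b, (Real.cosh (a (u b) - a (v b)) - 1) := by
      simpa using sum_fldA_mul u v β a fun _ => (1 : ℝ)
    show ∑ y, fldA u v β a y ≤ _
    rw [hsum]
    have hAs := G.prf_bond_sum hK hKM hM hgn hg0 hge hc0 hgc o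
    have hBs := G.prf_bond_sum hK hKM hM hgn hg0 hge hc0 hgc x
    have hle := Finset.sum_le_sum (s := Finset.univ) fun b _ => (hb b).1
    rw [Finset.sum_add_distrib] at hle
    refine (mul_le_mul_of_nonneg_left (hle.trans (add_le_add hAs hBs)) hβ).trans (le_of_eq ?_)
    ring
  · intro y
    show fldA u v β a y ≤ _
    set c := (1 + δ) * κ ^ 2 / (2 * (K : ℝ) ^ 2) with hc
    have hc1 : 0 ≤ c := by positivity
    refine le_trans (mul_le_mul_of_nonneg_left (Finset.sum_le_sum (g := fun b =>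
      c * ((if u b = y then 1 else 0) + if v b = y then 1 else 0)) fun b _ =>
        mul_le_mul_of_nonneg_right (hb b).2 (by split_ifs <;> norm_num)) (by positivity)) ?_
    rw [← Finset.mul_sum, Finset.sum_add_distrib, Finset.sum_boole, Finset.sum_boole]
    have du := G.degu y
    have dv := G.degv y
    rw [Nat.card_eq_fintype_card, Fintype.card_subtype] at du dv
    calc _ ≤ β / 2 * (c * (((2 : ℕ) : ℝ) + ((2 : ℕ) : ℝ))) := by gcongr
      _ = _ := by rw [hc]; push_cast; ring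

omit [Fintype V] [Fintype E] [DecidableEq V] in
/-- Algebraic decay with every exponent below `n / (16 β)`. -/
theorem decay (hn : 2 ≤ n) {β : ℝ} (hβ : 0 < β) {p : ℝ} (hp : p < (n : ℝ) / (16 * β)) :
    ∃ C : ℝ, ∀ {V E : Type} [Fintype V] [Fintype E] (u v : E → V) (ρ : V → V → ℕ) (cap : ℕ),
      Geo u v ρ cap → ∀ (i j : Fin n), i ≠ j → ∀ o x : V,
      |∫ σ, ⟪(σ o : EuclideanSpace ℝ (Fin n)), σ x⟫_ℝ * wt u v β i j 0 σ ∂cm V n|
        ≤ C * (1 + (min (ρ o x) cap : ℕ) : ℝ) ^ (-p) * pf u v β i j (0 : V → ℝ) := by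
  rcases le_or_gt p 0 with hp0 | hp0
  · refine ⟨1, ?_⟩
    intro V E _ _ u v ρ cap _ i j _ o x
    refine (abs_corr_le u v β o x).trans
      (le_mul_of_one_le_left (pf_pos u v (by omega) β i j 0).le ?_)
    rw [one_mul]
    exact Real.one_le_rpow (by simp) (by linarith)
  have hn' : (0 : ℝ) < n := by exact_mod_cast (show 0 < n by omega)
  set κ : ℝ := (n : ℝ) / (16 * β) with hκ
  have hκ0 : 0 < κ := by positivity
  set ν : ℝ := 1 - p / κ with hν
  have hν0 : 0 < ν := sub_pos.2 ((div_lt_one hκ0).2 hp)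
  have hν1 : ν < 1 := sub_lt_self _ (div_pos hp0 hκ0)
  set δ : ℝ := ν / 8 with hδ
  have hδ0 : 0 < δ := by positivity
  obtain ⟨h0, hh0, m0, hm0⟩ := field_bound (n := n) (by omega) hβ.le
    (show 0 < 2 * δ / n by positivity)
  obtain ⟨K0, hK0⟩ := exists_nat_ge (κ ^ 2 / δ + 2 * β * κ ^ 2 / h0 + 1 / δ + 1)
  have hK1 : 1 ≤ K0 := by
    have : (1 : ℝ) ≤ K0 := le_trans (le_add_of_nonneg_left (by positivity)) hK0
    exact_mod_cast this
  have hK' : (1 : ℝ) ≤ K0 := by exact_mod_cast hK1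
  have q1 : 0 ≤ κ ^ 2 / δ := by positivity
  have q2 : 0 ≤ 2 * β * κ ^ 2 / h0 := by positivity
  have q3 : 0 ≤ 1 / δ := by positivity
  have e1 : κ ^ 2 ≤ δ * K0 := by
    have : κ ^ 2 / δ ≤ K0 := by linarith
    rwa [div_le_iff₀ hδ0, mul_comm] at this
  have e2 : 2 * β * κ ^ 2 ≤ h0 * K0 := by
    have : 2 * β * κ ^ 2 / h0 ≤ K0 := by linarith
    rwa [div_le_iff₀ hh0, mul_comm (K0 : ℝ)] at this
  have e3 : 1 / (K0 : ℝ) ≤ δ := by
    have : 1 / δ ≤ K0 := by linarith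
    rw [div_le_iff₀ hδ0] at this
    rw [div_le_iff₀ (by linarith)]
    linarith
  have hexp : Real.exp (κ ^ 2 / (2 * (K0 : ℝ))) ≤ 1 + δ := by
    refine exp_le_one_add (by positivity) ?_ (by linarith)
    rw [div_le_iff₀ (by positivity)]
    linarith
  set Bd : ℕ := max (2 * K0 + 5) (max (m0 + 1) 9) with hBd
  refine ⟨(Bd : ℝ) ^ p + (n : ℝ) / 2 * Real.exp (2 * κ) * (6 * (K0 : ℝ)) ^ p, ?_⟩
  intro V E _ _ u v ρ cap G i j hij o x
  classical
  set D := min (ρ o x) cap with hD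
  set Z := pf u v β i j (0 : V → ℝ) with hZdef
  have hZ : 0 < Z := pf_pos u v (by omega) β i j 0
  have hpos : (0 : ℝ) < 1 + (D : ℝ) := by positivity
  have hdiv : ∀ c : ℝ, 0 ≤ c → c ^ p * (1 + (D : ℝ)) ^ (-p) = (c / (1 + (D : ℝ))) ^ p := by
    intro c hc
    rw [Real.div_rpow hc hpos.le, Real.rpow_neg hpos.le, div_eq_mul_inv]
  have hT1 : 0 ≤ (Bd : ℝ) ^ p * (1 + (D : ℝ)) ^ (-p) := by positivity
  have hT2 : 0 ≤ (n : ℝ) / 2 * Real.exp (2 * κ) * ((6 * (K0 : ℝ)) ^ p * (1 + (D : ℝ)) ^ (-p)) := by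
    positivity
  by_cases hfar : Bd ≤ D
  swap
  · refine (abs_corr_le u v β o x).trans (le_mul_of_one_le_left hZ.le ?_)
    have h1 : 1 ≤ (Bd : ℝ) ^ p * (1 + (D : ℝ)) ^ (-p) := by
      rw [hdiv _ (by positivity)]
      refine Real.one_le_rpow ?_ hp0.le
      rw [le_div_iff₀ hpos, one_mul]
      exact_mod_cast (show 1 + D ≤ Bd by omega)
    rw [add_mul]
    refine le_add_of_le_of_nonneg h1 (le_of_le_of_eq hT2 ?_)
    ring
  set M := (D - 3) / 2 with hMdef
  have hKM : K0 ≤ M := by omega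
  have hMm : M ≤ cap := by omega
  have hm : m0 ≤ cap := by omega
  obtain ⟨hsum, hsite⟩ := G.potential_bound hK1 hKM hMm hβ.le hexp hδ0.le o x (by omega)
  set a : V → ℝ := fun y => κ * (prf K0 M (ρ y o) - prf K0 M (ρ y x)) with ha
  set l : ℝ := Real.log M - Real.log K0 with hl
  have hl0 : 0 ≤ l := sub_nonneg.2 (Real.log_le_log (by linarith) (by exact_mod_cast hKM))
  have hdrop : a o - a x = 2 * κ * l := by
    have hox : prf K0 M (ρ o x) = 0 := prf_out hKM (by omega)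
    have hxo : prf K0 M (ρ x o) = 0 := by rw [G.symm]; exact hox
    simp only [ha, G.self, prf_in, hox, hxo, hl]
    ring
  have hfield : ∀ y, 0 ≤ fldA u v β a y ∧ fldA u v β a y ≤ h0 := by
    refine fun y => ⟨fldA_nonneg u v hβ.le a y, (hsite y).trans ?_⟩
    rw [div_le_iff₀ (by positivity)]
    have t1 : β * (1 + δ) * κ ^ 2 ≤ 2 * β * κ ^ 2 := by
      rw [mul_comm 2 β]
      exact mul_le_mul_of_nonneg_right (mul_le_mul_of_nonneg_left (by linarith) hβ.le) (sq_nonneg κ)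
    have t2 : h0 * (K0 : ℝ) ≤ h0 * (K0 : ℝ) ^ 2 :=
      mul_le_mul_of_nonneg_left (le_self_pow₀ hK' two_ne_zero) hh0.le
    linarith
  have hFB := hm0 u v ρ cap G hm i j hij (fldA u v β a) hfield
  have hX : -(a o - a x) + (2 / (n : ℝ) + 2 * δ / n) * ∑ y, fldA u v β a y ≤ 2 * κ + -(p * l) := by
    rw [hdrop]
    exact exponent_arith hn' hβ hκ hν hδ hν0 hν1 (by positivity) e3 hl0 hsum
  have hplanar := rotate_bound u v hβ.le hij a o x
  rw [corr_eq_planar, abs_mul, abs_of_pos (by positivity : (0 : ℝ) < (n : ℝ) / 2)]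
  have hchain : Real.exp (-(a o - a x)) * pf u v β i j (fldA u v β a)
      ≤ Real.exp (2 * κ) * ((6 * (K0 : ℝ)) ^ p * (1 + (D : ℝ)) ^ (-p)) * Z := by
    refine (mul_le_mul_of_nonneg_left hFB (Real.exp_pos _).le).trans ?_
    rw [← mul_assoc, ← Real.exp_add]
    refine mul_le_mul_of_nonneg_right ((Real.exp_le_exp.2 hX).trans ?_) hZ.le
    rw [Real.exp_add]
    refine mul_le_mul_of_nonneg_left ?_ (Real.exp_pos _).le
    have hMpos : (0 : ℝ) < M := by exact_mod_cast (show 0 < M by omega)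
    rw [hdiv _ (by positivity), show -(p * l) = (Real.log K0 - Real.log M) * p by rw [hl]; ring,
      ← Real.log_div (by positivity) hMpos.ne', ← Real.rpow_def_of_pos (by positivity)]
    refine Real.rpow_le_rpow (by positivity) ?_ hp0.le
    rw [div_le_div_iff₀ hMpos hpos]
    have hDM : 1 + (D : ℝ) ≤ 6 * (M : ℝ) := by exact_mod_cast (show 1 + D ≤ 6 * M by omega)
    exact (mul_le_mul_of_nonneg_left hDM (by linarith : (0 : ℝ) ≤ K0)).trans (le_of_eq (by ring))
  refine (mul_le_mul_of_nonneg_left (hplanar.trans hchain) (by positivity)).trans ?_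
  rw [add_mul, add_mul]
  refine le_add_of_nonneg_of_le (mul_nonneg hT1 hZ.le) (le_of_eq ?_)
  ring

end Vale.Agent.P163.Free
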